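import Vale.Agent.P075.Defs
import Vale.Agent.P075.Tree
import Vale.Agent.P075.Measure

/-!
P075, second question: the dyadic triangular Hilbert form is bounded on `L3 × L3 × L3`,
uniformly in the finite set of scales and in the coefficients.
-/

namespace Vale.Agent.Results.P075.DyadicBounded

open _root_.P075

theorem result : ∃ C : ℝ, ∀ (S : Finset ℤ) (eps : ℤ → ℝ), (∀ k, |eps k| ≤ 1) →
    ∀ F0 F1 F2 : ℝ × ℝ → ℝ,
      Measurable F0 → Measurable F1 → Measurable F2 →
      (∃ B, ∀ x, |F0 x| ≤ B) → (∃ B, ∀ x, |F1 x| ≤ B) → (∃ B, ∀ x, |F2 x| ≤ B) →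
      HasCompactSupport F0 → HasCompactSupport F1 → HasCompactSupport F2 →
      |dyForm S eps F0 F1 F2| ≤ C * (norm3 F0 * norm3 F1 * norm3 F2) :=
  bounded_of_discrete discrete_bound

end Vale.Agent.Results.P075.DyadicBounded
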